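import Crest.Agent.N221.GI.Dy3
import Crest.Agent.N221.G0.IDy

/-! Row 221, G0 INSTANCE (helper24): `G0S` from the abstract statement `G0A`. -/

set_option autoImplicit false

namespace Crest.Agent.N221

theorem g0S_A (hA : G0.G0A) : G0S :=
  g0S_of hA fun n N m a S G C H hm e b0 he hb => by
    obtain ⟨R1, h1, h⟩ := C.dyn3 H hm he hb
    refine ⟨R1, h1, fun R R0 hR => ?_⟩
    obtain ⟨r2, h2, h⟩ := h R R0 hR
    exact ⟨r2, h2, fun r1 κ τ a1 a2 a3 => h r1 a1 a2 κ a3 τ⟩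

end Crest.Agent.N221
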