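import Crest.Agent.N221.GI.Defs
import Crest.Agent.N221.G0.IS

/-! Row 221, G0 instance (helper94): crossings. -/

set_option autoImplicit false
set_option linter.unusedSectionVars false
set_option linter.unusedVariables false

open MeasureTheory Set Filter Topology Metric
open scoped ContDiff RealInnerProductSpace ENNReal
open Crest.GeometryTopology.Submanifold
open Crest.Agent.R241.DDefs Crest.Agent.R241.D2
open Crest.Agent.R208.J Crest.Agent.R208.L

noncomputable section

namespace Crest.Agent.N221.Cov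

variable {n N m : ℕ} {a : ℝ} {S : Set (Euc N)} {G : Geo n N (-(a ^ 2)) S} (C : Cov G)
variable {f f' f'' : FF n N m} {z z' : ZZ m} {x y y' ξ η : Euc n} {v u u' : Euc N} {q q' : Euc m}
  {g : Euc n → Euc n} {s t : ℝ}
variable (H : Hyp n N a S) (hm : m + 1 = n)
include H hm

lemma gg_fg (i : Bool) (hf : C.Frm f) (hg : C.Deck g) (hz : ‖z‖ ≤ 2 * C.rr m) :
    C.gg i (fg g f) z = C.gg i f z := by
  have d := C.Dm_of_le H hm hf hz
  have ne : ∀ ξ : Euc n, ‖ξ‖ = 1 → ξ ≠ 0 := fun ξ h => by rintro rfl; simp at h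
  simp only [gg, C.ge_fg H hf hg d, C.pq_fg H hf hg (ne _ ((C.rad H hm).front f hf z hz).1),
    C.pq_fg H hf hg (ne _ (C.back H hm hf hz).1)]

theorem crsG : C.CrsG m := by
  have ha := H.a_pos
  have r0 := C.rr_pos H hm
  have ne : ∀ ξ : Euc n, ‖ξ‖ = 1 → ξ ≠ 0 := fun ξ h => by rintro rfl; simp at h
  refine ⟨max 1 (16 / a), a / 64 * C.rr m, le_max_left _ _, by positivity,
    fun f ξ η y hf hξ hη hy h => ?_⟩
  rw [← neg_add', norm_neg, add_comm] at h ⊢
  obtain ⟨q, k1, k2⟩ := exists_zero_mono (F := fun q => C.pq f ξ (y + q) + C.pq f η (y + q))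
    (φ := fun q => C.bq f ξ (y + q) + C.bq f η (y + q)) (r := C.rr m)
    (c := a / 16) r0 (by positivity) (fun q => by
      rw [map_add]
      exact (((C.hasFDerivAt_bq H (ne _ hξ.1) f _).add (C.hasFDerivAt_bq H
        (ne _ hη.1) f _)).comp q ((hasFDerivAt_id q).const_add y)))
    (fun q hq => by
      simpa using C.pq_mono2 H hm hf hξ hη (q := y + q) (q' := y)
        ((norm_add_le _ _).trans (by linarith)) (by linarith))
    (by rw [add_zero]; linarith)
  refine ⟨y + q, (eq_neg_of_add_eq_zero_left k2).symm, le_trans ?_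
    (mul_le_mul_of_nonneg_right (le_max_right _ _) (norm_nonneg _))⟩
  rw [add_sub_cancel_left, div_mul_eq_mul_div, le_div_iff₀ ha]
  rw [add_zero] at k1
  linarith

end Crest.Agent.N221.Cov
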