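import Crest.Agent.N221.Dy.Nd

/-!
Row 221, G0 INSTANCE (helper73): the geometric core of the steps of `G0.Sy` on the real charts.
`Gm f f' ξ R β T D`: the plaque of the stable leaf of `ξ` over `ball 0 R` flies from the chart `f`
to the chart `f'`, stays in the box of size `β`, the flight time is `≥ T`, the frames are `D`-close.
(Unstable plaques: apply it to `fp f`, `fp f'`.)
-/

set_option autoImplicit false

open MeasureTheory Set Filter Topology Metric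
open scoped ContDiff RealInnerProductSpace ENNReal
open Crest.GeometryTopology.Submanifold
open Crest.Agent.R241.DDefs Crest.Agent.R241.D2
open Crest.Agent.R208.J Crest.Agent.R208.L

noncomputable section

namespace Crest.Agent.N221.Cov

variable {n N m : ℕ} {a : ℝ} {S : Set (Euc N)} {G : Geo n N (-(a ^ 2)) S} (C : Cov G)

/-- geometric core of a step -/
structure Gm (f f' : FF n N m) (ξ : Euc n) (R β T D : ℝ) : Prop where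
  frm : C.Frm f
  frm' : C.Frm f'
  fw : C.Fw f ξ
  dd : C.dd f.1 f'.1 ≤ D
  pl : ∀ y : Euc m, ‖y‖ < R → C.gs f ξ y ∈ C.dm f f' ∧ ‖C.gs f ξ y‖ ≤ β ∧
    ‖C.Tf f f' (C.gs f ξ y)‖ ≤ β ∧ T ≤ C.tm f f' (C.gs f ξ y)

/-- the next chart along the orbit of a plaque; all its plaques pull back; distances contract -/
def FwdG (m : ℕ) : Prop := ∃ K δ : ℝ, 1 ≤ K ∧ 0 < δ ∧ ∀ R r1 q T : ℝ, 0 < r1 → K * r1 ≤ R → R ≤ δ →
  0 < q → ∃ D : ℝ, ∀ (f : FF n N m) (ξ : Euc n), C.Frm f → C.Fw f ξ → ‖C.pq f ξ 0‖ ≤ r1 / 2 →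
    ∃ f' : FF n N m, C.Frm f' ∧ (C.ge f' 0).1 = ξ ∧ ∀ ξ', C.Fw f' ξ' → ‖C.pq f' ξ' 0‖ ≤ r1 →
      C.Gm f f' ξ' R (K * R) T D ∧ ‖C.pq f ξ' 0‖ ≤ r1 ∧ ‖C.lf f f' ξ' 0‖ ≤ R / 6 ∧
      ∀ ε, (∀ y, ‖y‖ < R → ‖C.pq f' ξ' y - C.pq f' ξ y‖ ≤ ε) →
        ∀ y, ‖y‖ < R → ‖C.pq f ξ' y - C.pq f ξ y‖ ≤ q * ε

/-- a step from a central plaque into any point -/
def BwdG (m : ℕ) : Prop := ∀ B : ℝ, 1 ≤ B → ∃ K δ : ℝ, 1 ≤ K ∧ 0 < δ ∧ ∀ R T : ℝ, 0 < R → R ≤ δ →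
  ∃ D : ℝ, ∀ (f : FF n N m) (z0 : ZZ m), C.Frm f → ‖z0‖ ≤ B * R →
    ∃ f' : FF n N m, C.ge f' 0 = C.ge f z0 ∧ C.Gm f' f (C.ge f' 0).1 R (K * R) T D

/-- specification: one step from a translate of `f` onto the central leaf of `f'` -/
def HitG (m : ℕ) : Prop := ∃ K δ : ℝ, 1 ≤ K ∧ 0 < δ ∧ ∀ R r1 T : ℝ, 0 < r1 → 0 < R → R ≤ δ →
  ∃ D : ℝ, ∀ f f' : FF n N m, C.Frm f → C.Frm f' → ∃ g, C.Deck g ∧
    C.Gm (fg g f) f' (C.ge f' 0).1 R (K * R) T D ∧ ‖C.pq (fg g f) (C.ge f' 0).1 0‖ ≤ r1 ∧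
    ‖C.lf (fg g f) f' (C.ge f' 0).1 0‖ ≤ R / 6

/-- crossing of a stable and an unstable graph near a point where they are close -/
def CrsG (m : ℕ) : Prop := ∃ K δ : ℝ, 1 ≤ K ∧ 0 < δ ∧ ∀ (f : FF n N m) (ξ η : Euc n) (y : Euc m),
  C.Frm f → C.Fw f ξ → C.Fw (fp f) η → ‖y‖ ≤ C.rr m → ‖-C.pq f η y - C.pq f ξ y‖ ≤ δ →
    ∃ y', -C.pq f η y' = C.pq f ξ y' ∧ ‖y' - y‖ ≤ K * ‖-C.pq f η y - C.pq f ξ y‖

end Crest.Agent.N221.Cov
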