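import Crest.Agent.N221.GI.Defs
import Crest.Agent.N221.Ch.Dmb

/-!
Row 221, G0 INSTANCE (helper72): the steps `BwdG` and `HitG` on the real charts.
-/

set_option autoImplicit false

open MeasureTheory Set Filter Topology Metric
open scoped ContDiff RealInnerProductSpace ENNReal
open Crest.GeometryTopology.Submanifold
open Crest.Agent.R241.DDefs Crest.Agent.R241.D2
open Crest.Agent.R208.J Crest.Agent.R208.L

noncomputable section

namespace Crest.Agent.N221.Cov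

variable {n N m : ℕ} {a : ℝ} {S : Set (Euc N)} {G : Geo n N (-(a ^ 2)) S} (C : Cov G)

omit C in
lemma HitP.late (ha : 0 < a) {c : ℝ} (hc : 0 < c) (s0 : ℝ) :
    ∃ s, s0 ≤ s ∧ 0 ≤ s ∧ Real.exp (-(a * s)) ≤ c := by
  have t : Tendsto (fun s : ℝ => Real.exp (-(a * s))) atTop (𝓝 0) :=
    Real.tendsto_exp_neg_atTop_nhds_zero.comp (tendsto_id.const_mul_atTop ha)
  exact ((eventually_ge_atTop s0).and ((eventually_ge_atTop 0).and
    (t.eventually_le_const hc))).exists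

omit C in
lemma HitP.small {K δ : ℝ} (hδ : 0 < δ) (hK : 0 ≤ K) :
    ∃ d, 0 < d ∧ ∀ R, 0 ≤ R → R ≤ d → K * R ≤ δ := by
  refine ⟨δ / (K + 1), by positivity, fun R R0 h => ?_⟩
  rw [le_div_iff₀ (by positivity)] at h
  nlinarith

variable (H : Hyp n N a S) (hm : m + 1 = n)
include H hm

theorem bwdG : C.BwdG m := by
  intro B B1
  have ha := H.a_pos
  have r0 := C.rr_pos H hm
  have r4 := (C.rad H hm).le
  obtain ⟨Kg, Kg1, hg⟩ := C.gs_le H hm (m := m)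
  obtain ⟨Kc, δc, Kc0, δc0, hc⟩ := C.ctrP_s H hm (m := m)
  obtain ⟨Ku, Ku0, hu⟩ := C.uv_near H hm (m := m)
  obtain ⟨Ks, δs, Ks0, δs0, hs⟩ := C.step H hm (m := m) 0
  obtain ⟨M, hM⟩ : ∃ M, M = Kc * Kg + Ku * B + B := ⟨_, rfl⟩
  have M0 : 0 < M := by rw [hM]; positivity
  obtain ⟨d1, d10, h1⟩ := HitP.small δc0 (K := Kg) (by linarith)
  obtain ⟨d2, d20, h2⟩ := HitP.small δs0 M0.le
  obtain ⟨d3, d30, h3⟩ := HitP.small one_pos (K := Kc * Kg + Ks * M) (by positivity)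
  obtain ⟨d4, d40, h4⟩ := HitP.small (half_pos r0) (K := B) (by positivity)
  refine ⟨Kg + Ks * M, min (min d1 d2) (min d3 d4), by nlinarith [mul_pos Ks0 M0],
    by positivity, fun R T R0 hR => ⟨|T| + 2, fun f z0 hf hz => ?_⟩⟩
  simp only [le_min_iff] at hR
  obtain ⟨⟨e1, e2⟩, e3, e4⟩ := hR
  replace h1 := h1 R R0.le e1
  replace h2 := h2 R R0.le e2
  replace h3 := h3 R R0.le e3
  replace h4 := h4 R R0.le e4
  have RB : R ≤ B * R := by nlinarith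
  obtain ⟨f0, h0, x0, v0, g0, -⟩ := C.centre H hm hf (z := z0) (by linarith)
  have h' := h0.fw C (-(|T| + 1))
  have o : C.Ov (C.fw f0 (-(|T| + 1))) f0 (|T| + 1) := by
    simpa using (C.ov_fw f0 (-(|T| + 1))).symm C h0
  generalize C.fw f0 (-(|T| + 1)) = f' at h' o
  have ge := o.ge_eq C H hm h' h0
  obtain ⟨c1, c2, -⟩ := C.cen_s H hm h'
  have d0 : C.dd f.1 f0.1 ≤ B * R := by
    rw [x0, C.dd_hy hf]; exact (norm_fst_le _).trans hz
  have T0 := abs_nonneg T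
  refine ⟨f', ge.symm.trans g0, h', hf, c1, ?_, fun y hy => ?_⟩
  · have := C.dd_triangle ha.le f'.1 f0.1 f.1
    rw [o.dd C h', C.dd_comm f0.1, abs_of_nonneg (by linarith)] at this
    linarith
  have n1 : ‖C.gs f' (C.ge f' 0).1 y‖ ≤ Kg * R := by
    have := (hg f' _ y h' c1.1 (by linarith)).1
    rw [c2, norm_zero, zero_add] at this
    exact this.trans (by gcongr)
  obtain ⟨a1, a2, a3⟩ := hc f' f0 _ _ _ h' h0 o (by linarith) h1 n1
    (C.ge_gs H hm h' c1 (by linarith)).2.2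
  have ex : Real.exp (-(a * (|T| + 1))) ≤ 1 := Real.exp_le_one_iff.2 (by nlinarith)
  have KR : 0 ≤ Kc * (Kg * R) := by positivity
  have uR : 0 ≤ Ku * (B * R) := by positivity
  obtain ⟨b1, b2, b3⟩ := hs f0 f (C.Tf f' f0 (C.gs f' (C.ge f' 0).1 y)) 0 (M * R) h0 hf (by simp) h2
    (by rw [hM]; nlinarith) (by rw [C.gd_zero, hM]; nlinarith)
    (by
      rw [C.vel_zero, v0]
      refine (hu f z0 hf (by linarith)).trans ?_
      have : Ku * ‖z0‖ ≤ Ku * (B * R) := by gcongr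
      rw [hM]; nlinarith)
  obtain ⟨k1, k2, k3⟩ := C.Tf_comp H hm h0 hf a1 b1
  have sM : 0 ≤ Ks * (M * R) := by positivity
  have gR : 0 ≤ Kg * R := by positivity
  refine ⟨k1, by nlinarith, by rw [k2]; nlinarith, ?_⟩
  rw [k3]
  have i1 := (abs_le.1 a3).1
  have i2 := (abs_le.1 b3).1
  have := le_abs_self T
  nlinarith

theorem hitG : C.HitG m := by
  have ha := H.a_pos
  have r0 := C.rr_pos H hm
  have r4 := (C.rad H hm).le
  obtain ⟨Kg, Kg1, hg⟩ := C.gs_le H hm (m := m)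
  obtain ⟨Kb, δb, Kb0, δb0, hb⟩ := C.box_s H hm (m := m)
  obtain ⟨Kl, δl, Kl0, δl0, hl⟩ := C.lf_lip H hm (m := m)
  obtain ⟨Kp, Kp0, hp⟩ := C.pq_lip H hm (m := m)
  obtain ⟨d1, d10, h1⟩ := HitP.small one_pos Kb0.le
  refine ⟨Kg + Kb, min (min d1 δb) (min δl (C.rr m)), by linarith, by positivity,
    fun R r1 T r10 R0 hR => ?_⟩
  simp only [le_min_iff] at hR
  obtain ⟨⟨e1, e2⟩, e3, e4⟩ := hR
  replace h1 := h1 R R0.le e1
  obtain ⟨R1, hr⟩ := C.ret H hm (m := m) (ε := R / 12) (by positivity)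
  obtain ⟨r, L, rp, L1, hd⟩ := C.dm_ball H hm (m := m) R1 (ρ := R / 12) (by linarith)
  obtain ⟨M, hM⟩ : ∃ M, M = (Kp + 1) * (Kl * (2 * R)) := ⟨_, rfl⟩
  have M0 : 0 < M := by rw [hM]; positivity
  obtain ⟨s, s1, s0, se⟩ := HitP.late ha
    (c := min (r1 / (Kb * R)) (min (r / 2 / M) (R / 12 / (L * M)))) (by positivity) (T + R1 + 2)
  simp only [le_min_iff] at se
  obtain ⟨se1, se2, se3⟩ := se
  rw [le_div_iff₀ (by positivity)] at se1 se2 se3
  have ex : Real.exp (-(a * s)) ≤ 1 := Real.exp_le_one_iff.2 (by nlinarith)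
  have e0 := Real.exp_pos (-(a * s))
  generalize hE : Real.exp (-(a * s)) = E at se1 se2 se3 ex e0
  refine ⟨s + R1, fun f f' hf hf' => ?_⟩
  have o' : C.Ov f' f' 0 := by simpa [C.fw_zero] using C.ov_fw f' 0
  obtain ⟨g, z₀, z, dg, dd1, n0, n1, gz, w1, p1, -, -, m1, t1, -, -, m2, t2, -⟩ :=
    hr f (C.fw f s) f' f' s 0 hf (hf.fw C s) hf' hf' (C.ov_fw f s) o' s0 le_rfl
  have h0 := hf.fg C dg
  have h1' := (hf.fw C s).fg C dg
  have o : C.Ov (fg g f) (fg g (C.fw f s)) s := by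
    rw [← C.fw_fg hf dg]; exact C.ov_fw _ s
  replace dd1 : C.dd (fg g (C.fw f s)).1 f'.1 ≤ R1 := dd1
  generalize fg g (C.fw f s) = f1 at h1' o dd1 w1 p1 m1 t1
  rw [mul_zero, neg_zero, Real.exp_zero, mul_one] at n1
  rw [hE] at n0
  have gξ : (C.ge f' z).1 = (C.ge f' 0).1 := by rw [gz]
  generalize (C.ge f' 0).1 = ξ at w1 p1 gξ ⊢
  refine ⟨g, dg, ?_⟩
  generalize fg g f = f0 at h0 o m1 t1 m2 t2 ⊢
  obtain ⟨b1, b2, b3⟩ := hb f0 f1 ξ s R h0 h1' o s0 w1 e2 (by linarith)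
  rw [hE] at b2
  have n0' : ‖z₀‖ ≤ R := n0.trans ((mul_le_of_le_one_right (by positivity) ex).trans (by linarith))
  have e5 : C.gs f0 ξ z₀.1 = z₀ := by
    have := (C.Tf_spec H hm hf' m2).2
    rw [t2] at this
    rw [← gξ, this]
    exact C.eq_gs H h0 (C.Dm_lt H hm h0 m2.1)
  have m3 := C.Tf_comp' H hm h1' hf' m1 m2
  obtain ⟨-, k2, -⟩ := C.Tf_comp H hm h1' hf' m1 m3
  rw [t2] at k2
  obtain ⟨u1, u2⟩ := hd f1 f' _ h1' hf' dd1 m3 t1 (by rw [← k2]; exact n1)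
  have key : ∀ y : Euc m, ‖y‖ ≤ R → C.gs f0 ξ y ∈ C.dm f0 f' ∧
      ‖C.Tf f0 f' (C.gs f0 ξ y)‖ ≤ R / 6 ∧ T ≤ C.tm f0 f' (C.gs f0 ξ y) := by
    intro y hy
    obtain ⟨c1, -, c3⟩ := b3 y hy
    have q0 : ‖z₀.1‖ ≤ R := (norm_fst_le _).trans n0'
    have l1 := (hl f0 f1 ξ s h0 h1' o s0 w1 (by linarith) y z₀.1 (by linarith) (by linarith)).2
    rw [hE] at l1
    obtain ⟨g1, -, g3, -⟩ := C.Tf_gs H hm h0 h1' b1 c1
    obtain ⟨g1', -, g3', -⟩ := C.Tf_gs H hm h0 h1' b1 (q := z₀.1) (by rwa [e5])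
    rw [e5] at g1'
    have l2 : ‖C.lf f0 f1 ξ y - C.lf f0 f1 ξ z₀.1‖ ≤ E * (Kl * (2 * R)) := by
      have : ‖y - z₀.1‖ ≤ 2 * R := (norm_sub_le _ _).trans (by linarith)
      calc _ ≤ Kl * E * (2 * R) := l1.trans (by gcongr)
        _ = _ := by ring
    have l3 := (hp f1 ξ (C.lf f0 f1 ξ y) (C.lf f0 f1 ξ z₀.1) h1' w1.1 (by linarith)
      (by linarith)).2
    have l4 : ‖C.Tf f0 f1 (C.gs f0 ξ y) - C.Tf f0 f1 z₀‖ ≤ E * M := by
      rw [g1, g1', hM]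
      have n := norm_nonneg (C.lf f0 f1 ξ y - C.lf f0 f1 ξ z₀.1)
      refine norm_prod_le_iff.2 ⟨?_, ?_⟩
      · exact l2.trans (by
          have : 0 ≤ E * (Kp * (Kl * (2 * R))) := by positivity
          linarith)
      · refine l3.trans ((mul_le_mul_of_nonneg_left l2 Kp0.le).trans ?_)
        have : 0 ≤ E * (Kl * (2 * R)) := by positivity
        linarith
    have mb : C.Tf f0 f1 (C.gs f0 ξ y) ∈ ball (C.Tf f0 f1 z₀) r := by
      rw [mem_ball, dist_eq_norm]; linarith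
    obtain ⟨j1, j2, j3⟩ := C.Tf_comp H hm h1' hf' c1 (u1 mb)
    have v1 := (u2 _ mb _ (mem_ball_self rp)).1
    rw [← k2, ← j2] at v1
    have v2 : L * ‖C.Tf f0 f1 (C.gs f0 ξ y) - C.Tf f0 f1 z₀‖ ≤ L * (E * M) := by gcongr
    have v3 := norm_sub_norm_le (C.Tf f0 f' (C.gs f0 ξ y)) z
    have v4 : L * (E * M) = E * (L * M) := by ring
    refine ⟨j1, by linarith, ?_⟩
    have w2 := (abs_le.1 (C.dd_tm H hm h1' hf' (u1 mb))).2
    have w3 := (norm_fst_le _).trans_lt (u1 mb).1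
    have w4 := (norm_fst_le _).trans_lt (C.Tf_spec H hm hf' (u1 mb)).1
    have w5 := neg_abs_le (C.tm f1 f' (C.Tf f0 f1 (C.gs f0 ξ y)))
    have w6 := (abs_le.1 c3).1
    rw [j3]
    linarith
  have bR : 0 ≤ Kb * R := by positivity
  have bE : Kb * R * E = E * (Kb * R) := by ring
  have bE' : E * (Kb * R) ≤ Kb * R := mul_le_of_le_one_left bR ex
  have gR : R ≤ Kg * R := le_mul_of_one_le_left R0.le Kg1
  have aR : (Kg + Kb) * R = Kg * R + Kb * R := by ring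
  refine ⟨⟨h0, hf', b1, ?_, fun y hy => ?_⟩, by linarith,
    (norm_fst_le _).trans (key 0 (by simp [R0.le])).2.1⟩
  · have := C.dd_triangle ha.le f0.1 f1.1 f'.1
    rw [o.dd C h0, abs_of_nonneg s0] at this
    linarith
  · obtain ⟨y1, y2, y3⟩ := key y hy.le
    have := (hg f0 ξ y h0 b1.1 (by linarith)).1
    have y4 : Kg * ‖y‖ ≤ Kg * R := by gcongr
    exact ⟨y1, by linarith, by linarith, y3⟩

end Crest.Agent.N221.Cov
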