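import Crest.Agent.N221.GI.St2
import Crest.Agent.N221.GI.Hit
import Crest.Agent.N221.G0.IS
import Crest.Agent.N221.G0.IFl

/-!
Row 221, G0 INSTANCE (helper24): `Dyn3` from the three cores, and the assembly `g0S_of`.
-/

set_option autoImplicit false
set_option linter.unusedSectionVars false

open MeasureTheory Set Filter Topology Metric
open scoped ContDiff RealInnerProductSpace ENNReal
open Crest.GeometryTopology.Submanifold
open Crest.Agent.R241.DDefs Crest.Agent.R241.D2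
open Crest.Agent.R208.J Crest.Agent.R208.L

noncomputable section

namespace Crest.Agent.N221.Cov

open G0

variable {n N m : ℕ} {a : ℝ} {S : Set (Euc N)} {G : Geo n N (-(a ^ 2)) S} (C : Cov G)
variable {F F' : FF n N m} {z : ZZ m} {ξ : Euc n} {g : Euc n → Euc n} {h c : ℝ} {α : TT N → ℝ}
  {R β T D : ℝ}

/-- the geometry of the steps with the constants in the order of `Sy` -/
def D3S (m : ℕ) : Prop := ∀ e b0 : ℝ, 0 < e → 1 ≤ b0 → ∃ R1 : ℝ, 0 < R1 ∧ ∀ R, 0 < R → R ≤ R1 →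
  ∃ r2 : ℝ, 0 < r2 ∧ ∀ r1 κ τ : ℝ, 0 < r1 → r1 ≤ r2 → 0 < κ → ∃ D, C.Dyn3 m b0 R e r1 κ D τ

variable {C} in
lemma Gm.sg (h : C.Gm F F' ξ R β T D) {β' D' : ℝ} (hβ : β ≤ β') (hD : D ≤ D')
    (h0 : ‖C.lf F F' ξ 0‖ ≤ 2 * R / 3) : C.Sg R β' D' T F ξ F' :=
  ⟨h.frm, h.frm', h.fw, h.dd.trans hD, h0, fun q hq => by
    obtain ⟨h1, h2, h3, h4⟩ := h.pl q (mem_ball_zero_iff.1 hq)
    exact ⟨h1, h2.trans hβ, h3.trans hβ, h4⟩⟩

/-- the system of all frames -/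
def syA (m : ℕ) (α : TT N → ℝ) (c R r0 r1 b b0 th : ℝ) (d : ℕ → ℝ) : G0.Sy (Euc m) (WW m) where
  F := {f : FF n N m // C.Frm f}
  g i f := C.gg i f.1
  M f := C.MM α c f.1
  R0 := C.rr m
  R := R
  r0 := r0
  r1 := r1
  q := 1 / 6
  b := b
  b0 := b0
  th := th
  c := d

variable (H : Hyp n N a S) (hm : m + 1 = n)
include H hm

theorem d3S_of (h1 : C.FwdG m) (h2 : C.BwdG m) (h3 : C.HitG m) : C.D3S m := by
  intro e b0 e0 b01
  obtain ⟨K1, δ1, k1, d1, h1⟩ := h1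
  obtain ⟨K2, δ2, k2, d2, h2⟩ := h2 b0 b01
  obtain ⟨K3, δ3, k3, d3, h3⟩ := h3
  have rr0 := C.rr_pos H hm (m := m)
  refine ⟨min (min δ1 (min δ2 δ3)) (min (e / (K1 + K2 + K3)) (C.rr m / b0)), by positivity,
    fun R R0 hR => ⟨R / K1, by positivity, fun r1 κ τ r0 hr κ0 => ?_⟩⟩
  simp only [le_min_iff] at hR
  obtain ⟨⟨a1, a2, a3⟩, a4, a5⟩ := hR
  rw [le_div_iff₀ (by positivity)] at a4 a5 hr
  obtain ⟨D1, h1⟩ := h1 R r1 κ τ r0 (by linarith) a1 κ0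
  obtain ⟨D2, h2⟩ := h2 R τ R0 a2
  obtain ⟨D3, h3⟩ := h3 R r1 τ r0 R0 a3
  refine ⟨max D1 (max D2 D3), fun f ξ hf hξ hp => ?_, fun f z0 hf z1 z2 => ?_, fun f f' hf hf' => ?_⟩
  · obtain ⟨f', b1, b2, b3⟩ := h1 f ξ hf hξ hp
    refine ⟨f', b1, b2, fun ξ' c1 c2 => ?_⟩
    obtain ⟨c3, c4, c5, c6⟩ := b3 ξ' c1 c2
    exact ⟨c4, c3.sg (by nlinarith) (le_max_left _ _) (by linarith), c5, fun ε hε y hy =>
      c6 ε (fun y hy => hε y (mem_ball_zero_iff.2 hy)) y (mem_ball_zero_iff.1 hy)⟩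
  · have l : ‖z0‖ ≤ b0 * R := by
      rw [Prod.norm_def]
      exact max_le (by nlinarith) z2
    obtain ⟨f', b1, b2⟩ := h2 f z0 hf l
    have t : C.Tf f' f 0 = z0 := C.Tf_eq H hm hf (by linarith) b1.symm
    have u := C.eq_gs H b2.frm (C.Dm_of_le H hm b2.frm (z := 0) (by rw [norm_zero]; positivity))
    refine ⟨f', b2.sg (by nlinarith) (le_max_of_le_right (le_max_left _ _)) ?_, b1, t⟩
    rw [lf, show C.gs f' (C.ge f' 0).1 0 = 0 from u, t]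
    exact z1
  · obtain ⟨g, hg, b1, b2, b3⟩ := h3 f f' hf hf'
    exact ⟨g, hg, b1.sg (by nlinarith) (le_max_of_le_right (le_max_right _ _)) (by linarith), b2, b3⟩

theorem ok_syA (hc : Co G h α c) (hd : C.D3S m) :
    ∃ R r0 r1 b b0 th d, R ≤ C.rr m ∧ (C.syA m α c R r0 r1 b b0 th d).Ok := by
  have rr0 := C.rr_pos H hm (m := m)
  have rr1 := (C.rad H hm).le
  have ha := H.a_pos
  obtain ⟨b0, th, c0, gs⟩ := C.gg_static H hm
  have b01 := gs.b01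
  obtain ⟨R1, R10, hd⟩ := hd (C.rr m / 2) b0 (by positivity) b01
  obtain ⟨R, R0, a1, a2⟩ : ∃ R, 0 < R ∧ R ≤ R1 ∧ 8 * b0 * R ≤ C.rr m :=
    ⟨min R1 (C.rr m / (8 * b0)), by positivity, min_le_left _ _, by
      rw [← le_div_iff₀' (by positivity)]; exact min_le_right _ _⟩
  obtain ⟨r2, r20, hd⟩ := hd R R0 a1
  obtain ⟨r1, r10, a3, a4⟩ : ∃ r1, 0 < r1 ∧ r1 ≤ r2 ∧ 12 * b0 * r1 ≤ R :=
    ⟨min r2 (R / (12 * b0)), by positivity, min_le_left _ _, by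
      rw [← le_div_iff₀' (by positivity)]; exact min_le_right _ _⟩
  obtain ⟨D, hd⟩ := hd r1 (1 / 6) (Real.log 48 / a) r10 a3 (by norm_num)
  obtain ⟨r, L, b, d, r0, L1, b1, d1, hdy⟩ :=
    C.ok_dyn H hm hc (β := C.rr m / 2) (by linarith) D
  obtain ⟨e, e1, he⟩ := C.uj_nu H hm hc
  obtain ⟨ρ, ρ0, a5, a6, a7⟩ : ∃ ρ, 0 < ρ ∧ ρ ≤ r ∧ ρ ≤ R ∧ L * ρ ≤ C.rr m / 2 :=
    ⟨min (min r R) (C.rr m / 2 / L), by positivity, (min_le_left _ _).trans (min_le_left _ _),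
      (min_le_left _ _).trans (min_le_right _ _), by
      rw [← le_div_iff₀' (by positivity)]; exact min_le_right _ _⟩
  have bR : R ≤ b0 * R := by nlinarith
  have br : r1 ≤ b0 * r1 := by nlinarith
  have gs' := GS.mono C gs le_rfl (c' := fun k => max (c0 k) (max (d k) (e k)))
    fun k => le_max_left _ _
  obtain ⟨f1, f2, f3⟩ := hdy (C.syA m α c R ρ r1 (max b b0) b0 th
    fun k => max (c0 k) (max (d k) (e k))) (Real.log 48 / a) a5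
    (show C.rr m / 2 + L * ρ ≤ C.rr m by linarith) (le_max_left _ _)
    (fun k => le_max_of_le_right (le_max_left _ _))
    (div_nonneg (Real.log_nonneg (by norm_num)) ha.le)
    (by
      rw [mul_div_cancel₀ _ ha.ne', Real.exp_neg, Real.exp_log (by norm_num)]
      exact le_of_eq (by norm_num [syA]))
    le_rfl R0 b01 (show b0 * R < C.rr m by linarith) (show r1 < C.rr m by linarith) le_rfl
    (fun f => ⟨f.1, f.2, fun _ _ => rfl, fun _ _ => rfl, fun _ _ => rfl⟩)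
    (fun F hF => ⟨⟨F, hF⟩, hF, fun _ _ => rfl, fun _ _ => rfl, fun _ _ => rfl⟩) hd
  have l2 : ∀ {E : Type} [NormedAddCommGroup E] {x : E}, ‖x‖ < C.rr m → ‖x‖ ≤ 2 * C.rr m :=
    fun hx => by linarith
  have l3 : ∀ {x : Euc m}, x ∈ ball (0 : Euc m) (C.rr m) → ‖x‖ ≤ 2 * C.rr m :=
    fun hx => l2 (mem_ball_zero_iff.1 hx)
  refine ⟨R, ρ, r1, max b b0, b0, th, _, by linarith, ⟨?_, ρ0, r10, (by norm_num : (0 : ℝ) < 1 / 6),
    le_rfl, b01, le_max_right _ _, gs.thp, gs.th1, gs'.c1, a6, a4, a2,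
    (by linarith : C.rr m ≤ 1), fun i f z hz => C.gg_self H hm i f.2 (l2 hz),
    fun i f z y hz hy => C.gg_lab H hm i f.2 (l2 hz) ((norm_fst_le (y, C.gg i f.1 z y)).trans (l2 hy)),
    fun i f z hz y hy => gs'.jet i f.1 z y f.2 (l2 hz) (by linarith [l3 hy]),
    fun i f z hz y hy => gs.slope i f.1 z y f.2 (l2 hz) (by linarith [l3 hy]),
    fun f z hz => ⟨C.nu α c f.1 (C.ge f.1 z).2, fun y hy => ⟨?_, fun _ => ?_⟩⟩,
    fun f z z' hz hz' y hy v => gs.trv f.1 z z' y v f.2 (l2 hz) (l2 hz') (l3 hy),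
    fun f z z' hz hz' y hy y' hy' => gs.sep f.1 z z' y y' f.2 (l2 hz) (l2 hz') (l3 hy) (l3 hy'),
    fun f z z' y hz hz' hy k => gs.int f.1 z z' y f.2 (l2 hz) (l2 hz') ?_ ?_,
    fun i f z z' hz hz' => gs.hol i f.1 z z' f.2 (l2 hz) (l2 hz'), f1, f2, f3⟩⟩
  · obtain ⟨ξ, hξ, η, -⟩ := dyn_third (n := n) H 0 0
    obtain ⟨L, hL⟩ := C.exists_frm hm (C.un_dir0 (bas_ne0 hξ))
    exact ⟨⟨_, hL⟩⟩
  · exact (he f.1 _ y f.2 (C.back H hm f.2 (l2 hz))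
      (by linarith [show ‖y‖ < C.rr m from mem_ball_zero_iff.1 hy])).mono
      fun k => le_max_of_le_right (le_max_right _ _)
  · exact C.MM_gu H hm f.2 (C.back H hm f.2 (l2 hz)) (l3 hy)
  · exact le_trans hy (show R ≤ C.rr m by linarith)
  · have k' : ‖C.gg true f.1 z' y - C.gg false f.1 z y‖ ≤ r1 := k
    nlinarith [mul_le_mul_of_nonneg_left k' (show 0 ≤ b0 by linarith)]

end Crest.Agent.N221.Cov

namespace Crest.Agent.N221

/-- THE ASSEMBLY -/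
theorem g0S_of (hA : G0.G0A) (hd : ∀ (n N m : ℕ) (a : ℝ) (S : Set (Euc N))
    (G : Geo n N (-(a ^ 2)) S) (C : Cov G), Hyp n N a S → m + 1 = n → C.D3S m) : G0S := by
  intro n N m a S G C H hm hc
  obtain ⟨h, α, c, hc⟩ := exists_co H hc
  obtain ⟨R, r0, r1, b, b0, th, d, hR, ok⟩ := C.ok_syA H hm hc (hd n N m a S G C H hm)
  obtain ⟨f, O, r, δ, h1, h2, h3, h4, h5, h6⟩ := hA m (WW m) _ ok
  have r0 := C.rr_pos H hm (m := m)
  exact ⟨f.1, f.2, Cov.MaxR.flag C H hm hc (δ := δ)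
    ⟨h1, h3.trans (ball_subset_ball (show R / 2 ≤ C.rr m by linarith)), h4, h5, h6⟩ f.2 h2⟩

theorem g0S_fwd (hA : G0.G0A) (hf : ∀ (n N m : ℕ) (a : ℝ) (S : Set (Euc N))
    (G : Geo n N (-(a ^ 2)) S) (C : Cov G), Hyp n N a S → m + 1 = n → C.FwdG m) : G0S :=
  g0S_of hA fun n N m a S G C H hm =>
    C.d3S_of H hm (hf n N m a S G C H hm) (C.bwdG H hm) (C.hitG H hm)

end Crest.Agent.N221
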