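import Crest.Agent.N221.GI.Defs
import Crest.Agent.N221.G0.Im2
import Crest.Agent.N221.Ch.Dmb

/-!
Row 221, G0 INSTANCE (helper24): `Gm` gives a step `Sy.St`, for both kinds of plaques.
`Rp α c Y f F`: the chart `f` of the abstract system `Y` is the chart of the frame `F`.
-/

set_option autoImplicit false
set_option linter.unusedSectionVars false

open MeasureTheory Set Filter Topology Metric
open scoped ContDiff RealInnerProductSpace ENNReal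
open Crest.GeometryTopology.Submanifold
open Crest.Agent.R241.DDefs Crest.Agent.R241.D2
open Crest.Agent.R208.J Crest.Agent.R208.L

noncomputable section

namespace Crest.Agent.N221.Cov

open G0

variable {n N m : ℕ} {a : ℝ} {S : Set (Euc N)} {G : Geo n N (-(a ^ 2)) S} (C : Cov G)

/-- the end that labels the `i`-leaf through `z` -/
def en (i : Bool) (F : FF n N m) (z : ZZ m) : Euc n := bif i then (C.ge F z).2 else (C.ge F z).1

/-- the point over `y` of the `i`-leaf of the end `ξ` -/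
def lp (i : Bool) (F : FF n N m) (ξ : Euc n) (y : Euc m) : ZZ m :=
  bif i then C.gu F ξ y else C.gs F ξ y

/-- the frame `F` represents the chart `f` -/
structure Rp (α : TT N → ℝ) (c : ℝ) (Y : G0.Sy (Euc m) (WW m)) (f : Y.F) (F : FF n N m) :
    Prop where
  frm : C.Frm F
  g0 : ∀ z, ‖z‖ < Y.R0 → Y.g false f z = C.pq F (C.ge F z).1
  g1 : ∀ z, ‖z‖ < Y.R0 → Y.g true f z = fun q => -C.pq F (C.ge F z).2 q
  M : ∀ z, ‖z‖ < Y.R0 → Y.M f z = C.MM α c F z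

variable {F F' : FF n N m} {z : ZZ m} {ξ : Euc n} {g : Euc n → Euc n} {h c : ℝ} {α : TT N → ℝ}
  {Y : G0.Sy (Euc m) (WW m)} {f : Y.F} {R β T D : ℝ}

lemma lp_fst (i : Bool) (F : FF n N m) (ξ : Euc n) (y : Euc m) : (C.lp i F ξ y).1 = y := by
  cases i <;> rfl

lemma lp_eq (i : Bool) (F : FF n N m) (ξ : Euc n) (y : Euc m) :
    C.gs (fb i F) ξ y = flb i (C.lp i F ξ y) := by
  cases i
  · rfl
  · exact C.gs_fp F ξ y

lemma en_eq (i : Bool) (F : FF n N m) (z : ZZ m) :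
    (C.ge (fb i F) (flb i z)).1 = C.en i F z := by
  cases i
  · rfl
  · exact congrArg Prod.fst (C.ge_fp F z)

variable {C} in
lemma Rp.pt (hr : C.Rp α c Y f F) (i : Bool) (hz : ‖z‖ < Y.R0) (y : Euc m) :
    Y.pt i f z y = C.lp i F (C.en i F z) y := by
  cases i
  · rw [G0.Sy.pt, hr.g0 z hz]; rfl
  · rw [G0.Sy.pt, hr.g1 z hz]; rfl

variable {C} in
/-- the graph function up to the sign -/
lemma Rp.norm_g (hr : C.Rp α c Y f F) (i : Bool) (hz : ‖z‖ < Y.R0) (y : Euc m) :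
    ‖Y.g i f z y‖ = ‖C.pq (fb i F) (C.en i F z) y‖ := by
  cases i
  · rw [hr.g0 z hz]; rfl
  · rw [hr.g1 z hz, norm_neg]; rfl

variable {C} in
lemma Rp.norm_g_sub (hr : C.Rp α c Y f F) (i : Bool) (hz : ‖z‖ < Y.R0) {z' : ZZ m}
    (hz' : ‖z'‖ < Y.R0) (y : Euc m) : ‖Y.g i f z y - Y.g i f z' y‖ =
      ‖C.pq (fb i F) (C.en i F z) y - C.pq (fb i F) (C.en i F z') y‖ := by
  cases i
  · rw [hr.g0 z hz, hr.g0 z' hz']; rfl
  · rw [hr.g1 z hz, hr.g1 z' hz', neg_sub_neg, norm_sub_rev]; rfl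

variable {C} in
lemma Frm.fbi (hF : C.Frm F) (i : Bool) : C.Frm (fb i F) := by
  cases i
  · exact hF
  · exact hF.fp C

variable (H : Hyp n N a S) (hm : m + 1 = n)
include H hm

lemma fw_en (hF : C.Frm F) (i : Bool) (hz : ‖z‖ ≤ 2 * C.rr m) : C.Fw (fb i F) (C.en i F z) := by
  cases i
  · exact (C.rad H hm).front F hF z hz
  · exact C.back H hm hF hz

lemma en_lp (hF : C.Frm F) (i : Bool) (hξ : C.Fw (fb i F) ξ) {y : Euc m} (hy : ‖y‖ ≤ 2 * C.rr m) :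
    C.en i F (C.lp i F ξ y) = ξ := by
  cases i
  · exact (C.ge_gs H hm hF hξ hy).2.2
  · exact (C.ge_gu H hm hF hξ hy).2.2

lemma Rp.fg (hr : C.Rp α c Y f F) (hg : C.Deck g) (h0 : Y.R0 ≤ 2 * C.rr m) :
    C.Rp α c Y f (fg g F) := by
  have d : ∀ z : ZZ m, ‖z‖ < Y.R0 → z ∈ C.Dm F := fun z hz =>
    C.Dm_of_le H hm hr.frm (hz.le.trans h0)
  refine ⟨hr.frm.fg C hg, fun z hz => ?_, fun z hz => ?_, fun z hz => ?_⟩
  · rw [hr.g0 z hz, C.ge_fg H hr.frm hg (d z hz),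
      C.pq_fg H hr.frm hg (bas_ne0 (C.ge_GG H hr.frm (d z hz)).1)]
  · rw [hr.g1 z hz, C.ge_fg H hr.frm hg (d z hz),
      C.pq_fg H hr.frm hg (bas_ne0 (C.ge_GG H hr.frm (d z hz)).2.1)]
  · rw [hr.M z hz, C.MM_fg H hr.frm hg (d z hz)]

lemma gm_lp (i : Bool) (hF : C.Frm F) (hF' : C.Frm F') (hG : C.Gm (fb i F) (fb i F') ξ R β T D)
    {y : Euc m} (hy : ‖y‖ < R) : C.lp i F ξ y ∈ C.dm F F' ∧ ‖C.lp i F ξ y‖ ≤ β ∧
      ‖C.Tf F F' (C.lp i F ξ y)‖ ≤ β ∧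
      C.Tf F F' (C.lp i F ξ y) = C.lp i F' ξ (C.lf (fb i F) (fb i F') ξ y) := by
  obtain ⟨h1, h2, h3, -⟩ := hG.pl y hy
  cases i
  · exact ⟨h1, h2, h3, (C.Tf_gs H hm hF hF' hG.fw h1).1⟩
  · have e : C.gs (fb true F) ξ y = flp (C.gu F ξ y) := C.gs_fp F ξ y
    rw [e] at h1 h2 h3
    have k1 : C.gu F ξ y ∈ C.dm F F' := C.dm_fp.1 h1
    have k3 : C.Tf (fb true F) (fb true F') (flp (C.gu F ξ y)) = _ := (C.Tf_fp H hm hF hF' k1).1
    rw [k3, norm_flp] at h3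
    rw [norm_flp] at h2
    exact ⟨k1, h2, h3, (C.Tf_gu H hm hF hF' hG.fw k1).1⟩

/-- contraction of the map of plaques -/
lemma gm_con (hG : C.Gm F F' ξ R β T D) (hT : 0 ≤ T) {y : Euc m} (hy : ‖y‖ < R) :
    ‖fderiv ℝ (C.lf F F' ξ) y‖ ≤ 8 * Real.exp (-(a * T)) := by
  obtain ⟨b, -, hb⟩ := C.norm_lf H hm
  obtain ⟨h1, -, -, h4⟩ := hG.pl y hy
  refine ContinuousLinearMap.opNorm_le_bound _ (by positivity) fun e => ?_
  refine ((hb F F' ξ y e hG.frm hG.frm' hG.fw h1).1 (hT.trans h4)).1.trans ?_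
  have := H.a_pos
  gcongr

lemma gm_lip (hG : C.Gm F F' ξ R β T D) (hT : 0 ≤ T) {y y' : Euc m} (hy : ‖y‖ < R)
    (hy' : ‖y'‖ < R) :
    ‖C.lf F F' ξ y - C.lf F F' ξ y'‖ ≤ 8 * Real.exp (-(a * T)) * ‖y - y'‖ :=
  (convex_ball (0 : Euc m) R).norm_image_sub_le_of_norm_fderiv_le
    (fun x hx => (C.contDiffAt_lf H hm hG.frm hG.frm' hG.fw
      (hG.pl x (mem_ball_zero_iff.1 hx)).1).differentiableAt (by simp))
    (fun x hx => C.gm_con H hm hG hT (mem_ball_zero_iff.1 hx))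
    (mem_ball_zero_iff.2 hy') (mem_ball_zero_iff.2 hy)

lemma uj_lf (D : ℝ) : ∃ d : ℕ → ℝ, (∀ k, 1 ≤ d k) ∧ ∀ (F F' : FF n N m) (ξ : Euc n) (y : Euc m),
    C.Frm F → C.Frm F' → C.dd F.1 F'.1 ≤ D → C.Fw F ξ → C.gs F ξ y ∈ C.dm F F' →
      UJ d (C.lf F F' ξ) y := by
  choose B hB using C.jb_lf H hm D
  exact ⟨fun k => max (B k) 1, fun k => le_max_right _ _, fun F F' ξ y h1 h2 h3 h4 h5 =>
    ⟨C.contDiffAt_lf H hm h1 h2 h4 h5, fun k =>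
      (hB k (((F, F'), ξ), y) ⟨h1, h2, h3, h4, h5⟩).trans (le_max_left _ _)⟩⟩

/-- THE STEP -/
theorem st_of (hc : Co G h α c) (hβ : β < C.rr m) (D : ℝ) : ∃ (r L b : ℝ) (d : ℕ → ℝ), 0 < r ∧
    1 ≤ L ∧ 1 ≤ b ∧ (∀ k, 1 ≤ d k) ∧ ∀ (Y : G0.Sy (Euc m) (WW m)) (T : ℝ), Y.r0 ≤ r →
    β + L * Y.r0 ≤ Y.R0 → b ≤ Y.b → (∀ k, d k ≤ Y.c k) → 0 ≤ T →
    8 * Real.exp (-(a * T)) ≤ Y.q → Y.q ≤ 1 / 6 →
    ∀ (i : Bool) (f f' : Y.F) (F F' : FF n N m) (z z' : ZZ m) (ξ : Euc n), C.Rp α c Y f F →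
    C.Rp α c Y f' F' → ‖z‖ < Y.R0 → ‖z'‖ < Y.R0 → C.en i F z = ξ → C.en i F' z' = ξ →
    C.Gm (fb i F) (fb i F') ξ Y.R β T D → ‖C.lf (fb i F) (fb i F') ξ 0‖ ≤ 2 * Y.R / 3 →
    Y.St i f z f' z' (C.Tf F F') (fun w => C.Bc h F' F (C.Tf F F' w)) ∧
      ∀ y, ‖y‖ < Y.R → Y.lf i f z (C.Tf F F') y = C.lf (fb i F) (fb i F') ξ y := by
  obtain ⟨r, L, r0, L1, hL⟩ := C.dm_ball H hm D hβ
  obtain ⟨b, d, b1, d1, hd⟩ := C.am_all H hm hc D
  obtain ⟨e, e1, he⟩ := C.uj_lf H hm D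
  refine ⟨r, L, b, fun k => max (d k) (e k), r0, L1, b1, fun k => le_max_of_le_left (d1 k), ?_⟩
  intro Y T hr hR hb hcc hT hq hq6 i f f' F F' z z' ξ hf hf' hz hz' e0 e0' hG h0
  have hD : C.dd F.1 F'.1 ≤ D := by have := hG.dd; cases i <;> exact this
  have p : ∀ y, Y.pt i f z y = C.lp i F ξ y := fun y => by rw [hf.pt i hz, e0]
  have p' : ∀ y, Y.pt i f' z' y = C.lp i F' ξ y := fun y => by rw [hf'.pt i hz', e0']
  have k := fun y (hy : ‖y‖ < Y.R) => C.gm_lp H hm i hf.frm hf'.frm hG hy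
  have l : ∀ y, ‖y‖ < Y.R → Y.lf i f z (C.Tf F F') y = C.lf (fb i F) (fb i F') ξ y := fun y hy => by
    rw [G0.Sy.lf, p, (k y hy).2.2.2, lp_fst]
  have lv : ∀ y ∈ ball (0 : Euc m) Y.R,
      Y.lf i f z (C.Tf F F') =ᶠ[𝓝 y] C.lf (fb i F) (fb i F') ξ := fun y hy =>
    mem_of_superset (isOpen_ball.mem_nhds hy) fun x hx => l x (mem_ball_zero_iff.1 hx)
  refine ⟨⟨hz, hz', fun y hy w hw => ?_, fun y hy => ?_, fun y hy => ?_, fun y hy => ?_,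
    fun y hy => ?_⟩, l⟩
  · obtain ⟨k1, k2, k3, -⟩ := k y (mem_ball_zero_iff.1 hy)
    rw [p] at hw
    obtain ⟨m1, m2⟩ := hL F F' _ hf.frm hf'.frm hD k1 k2 k3
    have w1 := ball_subset_ball hr hw
    have w2 := mem_ball_iff_norm.1 hw
    have w0 := norm_nonneg (w - C.lp i F ξ y)
    have n1 : ‖w‖ < Y.R0 := by
      have := norm_le_norm_add_norm_sub' w (C.lp i F ξ y)
      nlinarith
    have n2 : ‖C.Tf F F' w‖ < Y.R0 := by
      have := norm_le_norm_add_norm_sub' (C.Tf F F' w) (C.Tf F F' (C.lp i F ξ y))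
      have := (m2 w w1 _ (mem_ball_self r0)).1
      nlinarith
    obtain ⟨a1, a2, a3, a4, -, a6, a7⟩ := hd F F' w hf.frm hf'.frm hD (m1 w1)
    have c1 : ∀ k, d k ≤ Y.c k := fun k => (le_max_left _ _).trans (hcc k)
    refine ⟨n1, n2, a1.mono c1, a2.mono c1, a3.trans hb, fun v => (a4 v).trans (by gcongr),
      fun v => (a6 v).trans (by gcongr), 1, ?_, ?_, ?_⟩
    · rw [abs_one]; exact inv_le_one_of_one_le₀ (b1.trans hb)
    · rw [abs_one]; exact b1.trans hb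
    · rw [one_smul, hf.M w n1, hf'.M _ n2, a7]
  · rw [l y (mem_ball_zero_iff.1 hy), p, p', (k y (mem_ball_zero_iff.1 hy)).2.2.2]
  · have y1 := mem_ball_zero_iff.1 hy
    have y0 := norm_nonneg y
    have h1 := C.gm_lip H hm hG hT y1 (y' := 0) (by rw [norm_zero]; linarith)
    have h2 := norm_le_norm_add_norm_sub' (C.lf (fb i F) (fb i F') ξ y) (C.lf (fb i F) (fb i F') ξ 0)
    rw [sub_zero] at h1
    rw [l y y1]
    nlinarith [mul_le_mul_of_nonneg_right (hq.trans hq6) y0]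
  · rw [(lv y hy).fderiv_eq]
    exact (C.gm_con H hm hG hT (mem_ball_zero_iff.1 hy)).trans hq
  · exact ((he _ _ ξ y hG.frm hG.frm' hG.dd hG.fw (hG.pl y (mem_ball_zero_iff.1 hy)).1).mono
      fun k => (le_max_right _ _).trans (hcc k)).congr (lv y hy)

end Crest.Agent.N221.Cov
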