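import Crest.Agent.N221.GI.St
import Crest.Agent.N221.G0.ISg

/-!
Row 221, G0 INSTANCE (helper24): the fields `fwd`, `bwd`, `hit` of `Sy.Ok` from `Dyn3`.
-/

set_option autoImplicit false
set_option linter.unusedSectionVars false

open MeasureTheory Set Filter Topology Metric
open scoped ContDiff RealInnerProductSpace ENNReal
open Crest.GeometryTopology.Submanifold
open Crest.Agent.R241.DDefs Crest.Agent.R241.D2
open Crest.Agent.R208.J Crest.Agent.R208.L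

noncomputable section

namespace Crest.Agent.N221.Cov

open G0

variable {n N m : ℕ} {a : ℝ} {S : Set (Euc N)} {G : Geo n N (-(a ^ 2)) S} (C : Cov G)
variable {F F' : FF n N m} {z : ZZ m} {ξ : Euc n} {g : Euc n → Euc n} {h c : ℝ} {α : TT N → ℝ}
  {R β T D : ℝ}

namespace St2

omit C in
lemma fb_fb (i : Bool) (F : FF n N m) : fb i (fb i F) = F := by
  cases i
  · rfl
  · exact fp_fp F

omit C in
lemma flb_zero (i : Bool) : flb i (0 : ZZ m) = 0 := by cases i <;> simp [flb, flp]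

omit C in
lemma fg_fb (i : Bool) (g : Euc n → Euc n) (F : FF n N m) : fg g (fb i F) = fb i (fg g F) := by
  cases i <;> rfl

omit C in
lemma norm_flb (i : Bool) (z : ZZ m) : ‖(flb i z).1‖ = ‖z.1‖ ∧ ‖(flb i z).2‖ = ‖z.2‖ := by
  cases i <;> simp [flb, flp]

lemma en_zero (i : Bool) (F : FF n N m) : C.en i F 0 = (C.ge (fb i F) 0).1 := by
  rw [← C.en_eq, flb_zero]

lemma norm_lp (i : Bool) (F : FF n N m) (ξ : Euc n) :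
    ‖C.lp i F ξ 0‖ = ‖C.pq (fb i F) ξ 0‖ := by
  cases i <;> simp [lp, gs, gu, fb, Prod.norm_def, pq_fp]

lemma ge_fb {i : Bool} {z' : ZZ m} (e : C.ge (fb i F') (flb i z') = C.ge (fb i F) (flb i z)) :
    C.ge F' z' = C.ge F z := by
  cases i
  · exact e
  · exact Prod.swap_injective (((C.ge_fp F' z').symm.trans e).trans (C.ge_fp F z))

variable {C} in
lemma gm (h : C.Sg R β D T F ξ F') : C.Gm F F' ξ R β T D :=
  ⟨h.fr, h.fr', h.fw, h.dd, fun y hy => h.pl y (mem_ball_zero_iff.2 hy)⟩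

end St2

open St2

variable (H : Hyp n N a S) (hm : m + 1 = n)
include H hm

/-- THE DYNAMICAL FIELDS -/
theorem ok_dyn (hc : Co G h α c) (hβ : β < C.rr m) (D : ℝ) : ∃ (r L b : ℝ) (d : ℕ → ℝ), 0 < r ∧
    1 ≤ L ∧ 1 ≤ b ∧ (∀ k, 1 ≤ d k) ∧ ∀ (Y : G0.Sy (Euc m) (WW m)) (T : ℝ), Y.r0 ≤ r →
    β + L * Y.r0 ≤ Y.R0 → b ≤ Y.b → (∀ k, d k ≤ Y.c k) → 0 ≤ T →
    8 * Real.exp (-(a * T)) ≤ Y.q → Y.q ≤ 1 / 6 → 0 < Y.R → 1 ≤ Y.b0 → Y.b0 * Y.R < Y.R0 →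
    Y.r1 < Y.R0 → Y.R0 ≤ C.rr m → (∀ f, ∃ F : FF n N m, C.Rp α c Y f F) →
    (∀ F : FF n N m, C.Frm F → ∃ f, C.Rp α c Y f F) → C.Dyn3 m Y.b0 Y.R β Y.r1 Y.q D T →
    (∀ i f z, Y.Pq i f z (Y.r1 / 2) → ∃ f' φ A, ∀ z', Y.Pq i f' z' Y.r1 →
      ∃ z1, Y.Pq i f z1 Y.r1 ∧ Y.St i f z1 f' z' φ A ∧ ‖Y.lf i f z1 φ 0‖ ≤ Y.R / 6 ∧
        ∀ ε, Y.Ds i f' z' 0 ε → Y.Ds i f z1 z (Y.q * ε)) ∧
    (∀ i f z0, ‖z0.1‖ ≤ 2 * Y.R / 3 → ‖z0.2‖ ≤ Y.b0 * Y.R → ∃ f' φ A,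
      Y.St i f' 0 f z0 φ A ∧ φ 0 = z0) ∧
    ∀ i f f', ∃ z φ A, Y.Pq i f z Y.r1 ∧ Y.St i f z f' 0 φ A ∧ ‖Y.lf i f z φ 0‖ ≤ Y.R / 6 := by
  obtain ⟨r, L, b, d, r0, L1, b1, d1, hst⟩ := C.st_of H hm hc hβ D
  refine ⟨r, L, b, d, r0, L1, b1, d1, ?_⟩
  intro Y T h1 h2 h3 h4 h5 h6 h7 R0 b01 bR r1R Rr rp rp' dy
  have st := hst Y T h1 h2 h3 h4 h5 h6 h7
  have rr0 := C.rr_pos H hm (m := m)
  have n0 : ‖(0 : ZZ m)‖ < Y.R0 := by rw [norm_zero]; nlinarith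
  have n1 : ‖(0 : Euc m)‖ < Y.R := by rwa [norm_zero]
  have n2 : ‖(0 : Euc m)‖ ≤ 2 * C.rr m := by rw [norm_zero]; positivity
  have fe : ∀ (i : Bool) {F : FF n N m} {z : ZZ m}, C.Frm F → ‖z‖ < Y.R0 →
      C.Fw (fb i F) (C.en i F z) := fun i F z hF hz => C.fw_en H hm hF i (by linarith)
  have lb : ∀ (i : Bool) {f : Y.F} {F : FF n N m} {ξ : Euc n}, C.Rp α c Y f F → C.Fw (fb i F) ξ →
      ‖C.pq (fb i F) ξ 0‖ ≤ Y.r1 → C.en i F (C.lp i F ξ 0) = ξ ∧ Y.Pq i f (C.lp i F ξ 0) Y.r1 := by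
    intro i f F ξ hF hξ hp
    have e := C.en_lp H hm hF.frm i hξ n2
    have l : ‖C.lp i F ξ 0‖ < Y.R0 := by rw [norm_lp]; linarith
    exact ⟨e, l, by rw [hF.norm_g i l, e]; exact hp⟩
  refine ⟨fun i f z hz => ?_, fun i f z0 k1 k2 => ?_, fun i f f' => ?_⟩
  · obtain ⟨F, hF⟩ := rp f
    obtain ⟨F1, hF1, e1, k⟩ := dy.fwd (fb i F) (C.en i F z) (hF.frm.fbi i) (fe i hF.frm hz.1)
      (hF.norm_g i hz.1 0 ▸ hz.2)
    obtain ⟨F', rfl⟩ : ∃ F', F1 = fb i F' := ⟨fb i F1, (fb_fb i F1).symm⟩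
    obtain ⟨f', hF'⟩ := rp' F' (fb_fb i F' ▸ hF1.fbi i)
    refine ⟨f', C.Tf F F', fun w => C.Bc h F' F (C.Tf F F' w), fun z' hz' => ?_⟩
    obtain ⟨a1, a2, a3, a4⟩ := k (C.en i F' z') (fe i hF'.frm hz'.1) (hF'.norm_g i hz'.1 0 ▸ hz'.2)
    obtain ⟨l1, l2⟩ := lb i hF a2.fw a1
    obtain ⟨s1, s2⟩ := st i f f' F F' _ z' _ hF hF' l2.1 hz'.1 l1 rfl (gm a2) a2.l0
    refine ⟨_, l2, s1, by rw [s2 0 n1]; exact a3, fun ε hε y hy => ?_⟩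
    rw [hF.norm_g_sub i l2.1 hz.1, l1]
    refine a4 ε (fun y hy => ?_) y hy
    have := hε y hy
    rwa [hF'.norm_g_sub i hz'.1 n0, en_zero, e1] at this
  · obtain ⟨F, hF⟩ := rp f
    obtain ⟨F1, a1, a2, -⟩ := dy.bwd (fb i F) (flb i z0) (hF.frm.fbi i)
      ((norm_flb i z0).1 ▸ k1) ((norm_flb i z0).2 ▸ k2)
    obtain ⟨F', rfl⟩ : ∃ F', F1 = fb i F' := ⟨fb i F1, (fb_fb i F1).symm⟩
    obtain ⟨f', hF'⟩ := rp' F' (fb_fb i F' ▸ a1.fr.fbi i)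
    have l : ‖z0‖ < Y.R0 := by
      rw [Prod.norm_def]
      exact max_lt (by nlinarith) (by linarith)
    refine ⟨f', _, _, (st i f' f F' F 0 z0 _ hF' hF n0 l (en_zero C i F')
      (by rw [← C.en_eq, a2]) (gm a1) a1.l0).1, C.Tf_eq H hm hF.frm (by linarith) ?_⟩
    exact ge_fb C (i := i) (by rw [flb_zero, a2])
  · obtain ⟨F, hF⟩ := rp f
    obtain ⟨F', hF'⟩ := rp f'
    obtain ⟨g, hg, a1, a2, a3⟩ := dy.hit (fb i F) (fb i F') (hF.frm.fbi i) (hF'.frm.fbi i)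
    rw [fg_fb] at a1 a2 a3
    have hG := Rp.fg C H hm hF hg (by linarith)
    obtain ⟨l1, l2⟩ := lb i hG a1.fw a2
    obtain ⟨s1, s2⟩ := st i f f' _ F' _ 0 _ hG hF' l2.1 n0 l1 (en_zero C i F') (gm a1) a1.l0
    exact ⟨_, _, _, l2, s1, by rw [s2 0 n1]; exact a3⟩

end Crest.Agent.N221.Cov
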